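import Crest.Agent.X212.Tw39.Tw
import Crest.Agent.X212.H7.Defs

/-!
# X212 / Tw39 / Main (helper39): `H7.TwStmt`
-/

set_option autoImplicit false

namespace Crest.Agent.X212.Tw39

/-- **TW** -/
theorem twStmt : H7.TwStmt := by
  intro R o ν A B δ r g ho h hr hν g0 h1 h2
  obtain ⟨θ, θ₁, T, c, c₁, p, e, -, k⟩ := Crs.exists_form (t := 0) (θ := 0) (ε := 1)
    ⟨⟨h.hA.ld, h.hA.per⟩, ⟨h.hB.ld, h.hB.per⟩, by linarith [h.small], .inl rfl,
      fun z a b => by simpa using h.box z a b, fun z w a b c => by simpa using h.only z w a b c⟩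
    h.pos ho h.hA.pos hr
  exact ⟨hν, θ, θ₁, T, c, k ν h2 fun z _ => ⟨g z, g0 z, h1 z⟩, p, c₁, e⟩

end Crest.Agent.X212.Tw39
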