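import Crest.Agent.X212.Orx52.Prod

/-!
# X212 / Tw39 / Tw (helper39): Dehn twists and circle maps on a handle

* `ka a`, `St a` : a smooth step and the staircase;  `Ann I A` : annulus chart of period one;
* `Ann.sm_extend`, `del A a` (winds once across `A`), `twD` (the twist);
* `Crs.exists_tw` : for two annuli crossing once, `u · (u₁ ∘ t) = u₁ · exp (i g)`, `u = exp (2 π i re)`
  on the first annulus;  `Crs.exists_form` : the same for forms.
-/

set_option autoImplicit false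
set_option linter.unusedSectionVars false

open Set Filter Topology Function Complex
open scoped ContDiff Manifold Real
open Crest.Agent.R208 Crest.Agent.R208.F Crest.Agent.X212.Dr59 Crest.Agent.X212.Int54
  Crest.Agent.X212.Glue52 Crest.Agent.X212.Orx52 Crest.Agent.X212.Line51

noncomputable section

namespace Crest.Agent.X212.Tw39

/-- a step from `0` (left of `-a`) to `1` (right of `a`) -/
def ka (a r : ℝ) : ℝ := Real.smoothTransition ((r + a) / (2 * a))

variable {a : ℝ}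

theorem ka_cd (a : ℝ) : ContDiff ℝ ∞ (ka a) :=
  Real.smoothTransition.contDiff.comp ((contDiff_id.add contDiff_const).div_const _)

theorem ka_zero (ha : 0 < a) {r : ℝ} (h : r ≤ -a) : ka a r = 0 :=
  Real.smoothTransition.zero_of_nonpos (div_nonpos_of_nonpos_of_nonneg (by linarith) (by linarith))

theorem ka_one (ha : 0 < a) {r : ℝ} (h : a ≤ r) : ka a r = 1 :=
  Real.smoothTransition.one_of_one_le ((one_le_div (by linarith)).2 (by linarith))

theorem ka_int (ha : 0 < a) {r : ℝ} (h : a ≤ |r|) : ∃ n : ℤ, ka a r = n := by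
  rcases le_abs'.1 h with h | h
  exacts [⟨0, by simp [ka_zero ha h]⟩, ⟨1, by simp [ka_one ha h]⟩]

/-- the staircase -/
def St (a y : ℝ) : ℝ := ⌊y + 2⁻¹⌋ + ka a (y - ⌊y + 2⁻¹⌋)

theorem St_add (a y : ℝ) (n : ℤ) : St a (y + n) = St a y + n := by
  rw [St, St, add_right_comm y, Int.floor_add_intCast]
  push_cast
  rw [add_sub_add_right_eq_sub]
  ring

theorem St_eq {y : ℝ} (h : |y| < 2⁻¹) : St a y = ka a y := by
  have : ⌊y + 2⁻¹⌋ = 0 := Int.floor_eq_zero_iff.2
    ⟨by linarith [(abs_lt.1 h).1], by linarith [(abs_lt.1 h).2]⟩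
  simp [St, this]

theorem St_int (ha : 0 < a) {y : ℝ} (h : ∀ n : ℤ, a ≤ |y - n|) : ∃ n : ℤ, St a y = n :=
  let ⟨n, hn⟩ := ka_int ha (h ⌊y + 2⁻¹⌋)
  ⟨⌊y + 2⁻¹⌋ + n, by rw [St, hn, Int.cast_add]⟩

theorem St_cd (ha : 0 < a) (ha' : a < 2⁻¹) : ContDiff ℝ ∞ (St a) := by
  refine contDiff_iff_contDiffAt.2 fun y => ?_
  have h1 := Int.floor_le (y + 2⁻¹)
  have h2 := Int.lt_floor_add_one (y + 2⁻¹)
  generalize ⌊y + 2⁻¹⌋ = n at h1 h2
  refine ContDiffAt.congr_of_eventuallyEq (f := fun x => n + ka a (x - n)) (contDiff_const.add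
    ((ka_cd a).comp (contDiff_id.sub contDiff_const))).contDiffAt ?_
  filter_upwards [Ioo_mem_nhds (show n - 1 + a < y by linarith) (show y < n + 2⁻¹ by linarith)]
    with x hx
  rcases le_or_gt (n : ℝ) (x + 2⁻¹) with h | h
  · rw [St, Int.floor_eq_iff.2 ⟨h, by linarith [hx.2]⟩]
  · rw [St, Int.floor_eq_iff (z := n - 1).2 ⟨by push_cast; linarith [hx.1], by push_cast; linarith⟩,
      ka_one ha (by push_cast; linarith [hx.1]), ka_zero ha (by linarith)]
    simp

/-- `exp (2 π i y)` -/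
def ex (y : ℝ) : Circle := Circle.exp (2 * π * y)

theorem ex_add (x y : ℝ) : ex (x + y) = ex x * ex y := by rw [ex, mul_add, Circle.exp_add]; rfl

theorem ex_int (n : ℤ) : ex n = 1 := by rw [ex, mul_comm, Circle.exp_int_mul_two_pi]

theorem ex_St (a y : ℝ) (n : ℤ) : ex (St a (y + n)) = ex (St a y) := by
  rw [St_add, ex_add, ex_int, mul_one]

theorem sm_ex : ContMDiff 𝓘(ℝ, ℝ) (𝓡 1) ∞ ex :=
  contMDiff_circleExp.comp (contDiff_const.mul contDiff_id).contMDiff

variable {E : Type*} [NormedAddCommGroup E] [NormedSpace ℝ E] [FiniteDimensional ℝ E]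
  {H : Type*} [TopologicalSpace H] {I : ModelWithCorners ℝ E H} [I.Boundaryless]
  {M : Type*} [TopologicalSpace M] [ChartedSpace H M] [IsManifold I ∞ M] [T2Space M]
  {E' : Type*} [NormedAddCommGroup E'] [NormedSpace ℝ E']
  {H' : Type*} [TopologicalSpace H'] {J : ModelWithCorners ℝ E' H'}
  {N : Type*} [TopologicalSpace N] [ChartedSpace H' N] {A B : ℂ → M}

variable (I) in
/-- an annulus chart of period one -/
structure Ann (A : ℂ → M) : Prop where
  ld : IsLocalDiffeomorph 𝓘(ℝ, ℂ) I ∞ A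
  eq : ∀ z w, A z = A w ↔ ∃ n : ℤ, w = z + n

/-- the closed strip -/
def strip (A : ℂ → M) (a : ℝ) : Set M := A '' {z | |z.im| ≤ a}

theorem Ann.per (h : Ann I A) (z : ℂ) (n : ℤ) : A (z + n) = A z := ((h.eq _ _).2 ⟨n, rfl⟩).symm

theorem Ann.mem_strip (h : Ann I A) {z : ℂ} : A z ∈ strip A a ↔ |z.im| ≤ a := by
  refine ⟨?_, fun hz => ⟨z, hz, rfl⟩⟩
  rintro ⟨w, hw, e⟩
  obtain ⟨n, rfl⟩ := (h.eq _ _).1 e
  simpa using hw

theorem Ann.isCompact_strip (h : Ann I A) (a : ℝ) : IsCompact (strip A a) := by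
  have := (isCompact_Icc.reProdIm isCompact_Icc : IsCompact (Icc (0:ℝ) 1 ×ℂ Icc (-a) a)).image
    h.ld.contMDiff.continuous
  convert this using 1
  refine Subset.antisymm ?_ (image_mono fun z hz => abs_le.2 hz.2)
  rintro _ ⟨z, hz, rfl⟩
  refine ⟨z + (-⌊z.re⌋ : ℤ), ⟨?_, by simpa using abs_le.1 hz⟩, h.per _ _⟩
  simpa [← sub_eq_add_neg] using (Int.fract_lt_one _).le

theorem Ann.ext_apply {Z : Type*} (h : Ann I A) {F : ℂ → Z} (hF : ∀ z (n : ℤ), F (z + n) = F z)
    (O : M → Z) (z : ℂ) : extend A F O (A z) = F z :=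
  FactorsThrough.extend_apply (fun z w e => by
    obtain ⟨n, rfl⟩ := (h.eq _ _).1 e
    exact (hF _ _).symm) _ _

theorem Ann.ext_out {Z : Type*} (h : Ann I A) {F : ℂ → Z} (hF : ∀ z (n : ℤ), F (z + n) = F z)
    {O : M → Z} (hO : ∀ z, a ≤ |z.im| → F z = O (A z)) {x : M} (hx : x ∉ strip A a) :
    extend A F O x = O x := by
  by_cases hx' : ∃ z, A z = x
  · obtain ⟨z, rfl⟩ := hx'
    rw [h.ext_apply hF, hO z (not_le.1 (mt h.mem_strip.2 hx)).le]
  · exact extend_apply' _ _ _ hx'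

theorem Ann.sm_ext (h : Ann I A) {F : ℂ → N} (hF : ∀ z (n : ℤ), F (z + n) = F z)
    {O : M → N} (hO : ∀ z, a ≤ |z.im| → F z = O (A z)) (sF : ContMDiff 𝓘(ℝ, ℂ) J ∞ F)
    (sO : ContMDiff I J ∞ O) : ContMDiff I J ∞ (extend A F O) := fun x => by
  by_cases hx : x ∈ strip A a
  · obtain ⟨z, -, rfl⟩ := hx
    exact contMDiffAt_of_comp (h.ld z) ((sF z).congr_of_eventuallyEq (.of_forall (h.ext_apply hF O)))
  · exact (sO x).congr_of_eventuallyEq (eventually_of_mem
      ((h.isCompact_strip a).isClosed.isOpen_compl.mem_nhds hx) fun y hy => h.ext_out hF hO hy)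

theorem sm_im : ContDiff ℝ ∞ fun z : ℂ => z.im := imCLM.contDiff

theorem sm_re : ContDiff ℝ ∞ fun z : ℂ => z.re := reCLM.contDiff

/-- the circle map which winds once across the annulus -/
def del (A : ℂ → M) (a : ℝ) : M → Circle := extend A (fun z => ex (ka a z.im)) 1

theorem Ann.del_apply (h : Ann I A) (z : ℂ) : del A a (A z) = ex (ka a z.im) :=
  h.ext_apply (by simp) _ _

theorem del_far (ha : 0 < a) (z : ℂ) (h : a ≤ |z.im|) : ex (ka a z.im) = 1 := by
  obtain ⟨n, hn⟩ := ka_int ha h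
  rw [hn, ex_int]

theorem Ann.del_out (h : Ann I A) (ha : 0 < a) {x : M} (hx : x ∉ strip A a) : del A a x = 1 :=
  h.ext_out (by simp) (del_far ha) hx

theorem Ann.sm_del (h : Ann I A) (ha : 0 < a) : ContMDiff I (𝓡 1) ∞ (del A a) :=
  h.sm_ext (by simp) (del_far ha) (sm_ex.comp ((ka_cd a).comp sm_im).contMDiff) contMDiff_const

/-- the shear -/
def shD (a s : ℝ) : ℂ ≃ₘ^∞⟮𝓘(ℝ, ℂ), 𝓘(ℝ, ℂ)⟯ ℂ where
  toFun z := z + (s * ka a z.im : ℝ)
  invFun z := z - (s * ka a z.im : ℝ)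
  left_inv z := by simp
  right_inv z := by simp
  contMDiff_toFun := (contDiff_id.add (ofRealCLM.contDiff.comp
    (contDiff_const.mul ((ka_cd a).comp sm_im)))).contMDiff
  contMDiff_invFun := (contDiff_id.sub (ofRealCLM.contDiff.comp
    (contDiff_const.mul ((ka_cd a).comp sm_im)))).contMDiff

theorem shD_apply (a s : ℝ) (z : ℂ) : shD a s z = z + (s * ka a z.im : ℝ) := rfl

/-- the `k`-fold twist -/
def twF (A : ℂ → M) (a : ℝ) (k : ℤ) : M → M := extend A (A ∘ shD a k) id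

theorem Ann.per_sh (h : Ann I A) (s : ℝ) (z : ℂ) (n : ℤ) : (A ∘ shD a s) (z + n) = (A ∘ shD a s) z := by
  simp only [comp_apply, shD_apply, add_im, intCast_im, add_zero]
  rw [add_right_comm, h.per]

theorem Ann.far_sh (h : Ann I A) (ha : 0 < a) (k : ℤ) (z : ℂ) (hz : a ≤ |z.im|) :
    (A ∘ shD a k) z = id (A z) := by
  obtain ⟨n, hn⟩ := ka_int ha hz
  simpa [shD_apply, hn] using h.per z (k * n)

theorem Ann.twF_apply (h : Ann I A) (k : ℤ) (z : ℂ) : twF A a k (A z) = A (shD a k z) :=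
  h.ext_apply (h.per_sh k) _ _

theorem Ann.twF_out (h : Ann I A) (ha : 0 < a) (k : ℤ) {x : M} (hx : x ∉ strip A a) :
    twF A a k x = x := h.ext_out (h.per_sh k) (h.far_sh ha k) hx

theorem Ann.twF_neg (h : Ann I A) (ha : 0 < a) (k : ℤ) (x : M) : twF A a (-k) (twF A a k x) = x := by
  by_cases hx : x ∈ strip A a
  · obtain ⟨z, -, rfl⟩ := hx
    simp [h.twF_apply, shD_apply]
  · rw [h.twF_out ha k hx, h.twF_out ha _ hx]

theorem Ann.sm_twF (h : Ann I A) (ha : 0 < a) (k : ℤ) : ContMDiff I I ∞ (twF A a k) :=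
  h.sm_ext (h.per_sh k) (h.far_sh ha k) (h.ld.contMDiff.comp (shD a k).contMDiff) contMDiff_id

/-- the twist as a diffeomorphism -/
def Ann.twD (h : Ann I A) (ha : 0 < a) (k : ℤ) : M ≃ₘ^∞⟮I, I⟯ M where
  toFun := twF A a k
  invFun := twF A a (-k)
  left_inv := h.twF_neg ha k
  right_inv x := by simpa using h.twF_neg ha (-k) x
  contMDiff_toFun := h.sm_twF ha k
  contMDiff_invFun := h.sm_twF ha (-k)

theorem Ann.pos_twD (h : Ann I A) (ha : 0 < a) (k : ℤ) {o : M → Ext E} (ho : Ori I o) :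
    SameOn (pm I I (h.twD ha k) o) o univ := fun x _ => by
  by_cases hx : x ∈ strip A a
  · have hb := ori_pm ho h.ld
    have hc := ori_pm hb (shD a k).isLocalDiffeomorph
    have h1 : SameOn (pm 𝓘(ℝ, ℂ) 𝓘(ℝ, ℂ) (shD a k) (pm 𝓘(ℝ, ℂ) I A o)) (pm 𝓘(ℝ, ℂ) I A o) univ := by
      refine same_of_pt (x := -(a + 1) * Complex.I) (fun z _ => ⟨hc.sm z, hc.ne z⟩)
        (fun z _ => ⟨hb.sm z, hb.ne z⟩) isPreconnected_univ trivial ?_
      rw [pm_of_eventually_id]
      · exact mul_self_pos.2 (hb.ne _)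
      · filter_upwards [(isOpen_lt continuous_im continuous_const).mem_nhds
          (show (-(a + 1) * Complex.I : ℂ).im < -a by simp)] with z hz
        simp [shD_apply, ka_zero ha hz.le]
    rw [pm_ld_comp h.ld (shD a k).isLocalDiffeomorph,
      show A ∘ shD a k = h.twD ha k ∘ A from funext fun z => (h.twF_apply k z).symm,
      ← pm_ld_comp (h.twD ha k).isLocalDiffeomorph h.ld] at h1
    exact same_of_pm (fun z _ => h.ld z) h1 x (image_mono (subset_univ _) hx)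
  · rw [pm_of_eventually_id (f := h.twD ha k) (eventually_of_mem
      ((h.isCompact_strip a).isClosed.isOpen_compl.mem_nhds hx) fun y hy => h.twF_out ha k hy)]
    exact mul_self_pos.2 (ho.ne x)

/-! ### two annuli crossing once -/

variable (I) in
/-- two annuli plumbed at one crossing -/
structure Crs (A B : ℂ → M) (δ t θ ε : ℝ) : Prop where
  hA : Ann I A
  hB : Ann I B
  le : δ ≤ 2⁻¹
  sgn : ε = 1 ∨ ε = -1
  box : ∀ z : ℂ, |z.re| < δ → |z.im| < δ → B (t + z) = A (θ + ε * Complex.I * z)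
  only : ∀ z w : ℂ, |z.im| < δ → |w.im| < δ → A z = B w → ∃ m : ℤ, |w.re - t - m| < δ

variable {δ t θ ε : ℝ}

theorem Crs.int (h : Crs I A B δ t θ ε) : ∃ e : ℤ, ε = e ∧ ε * ε = 1 ∧ |ε| = 1 := by
  rcases h.sgn with rfl | rfl
  exacts [⟨1, by simp⟩, ⟨-1, by simp⟩]

theorem Crs.del_B (h : Crs I A B δ t θ ε) (ha : 0 < a) (ha' : a < δ) {w : ℂ} (hw : |w.im| < δ) :
    del A a (B w) = ex (St a (ε * (w.re - t))) := by
  obtain ⟨e, he, h2, h3⟩ := h.int
  by_cases hm : ∃ m : ℤ, |w.re - t - m| < δ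
  · obtain ⟨m, hm⟩ := hm
    have h1 := h.box (w - t - m) (by simpa using hm) (by simpa using hw)
    rw [show (t : ℂ) + (w - t - m) = w + (-m : ℤ) by push_cast; ring, h.hB.per] at h1
    rw [h1, h.hA.del_apply, ← ex_St a _ (-(e * m)), St_eq]
    · congr 2
      simp [← he]
      ring
    · rw [show ε * (w.re - t) + (-(e * m) : ℤ) = ε * (w.re - t - m) by push_cast; rw [← he]; ring,
        abs_mul, h3, one_mul]
      exact hm.trans_le h.le
  · push Not at hm
    obtain ⟨n, hn⟩ := St_int ha (y := ε * (w.re - t)) fun n => by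
      rw [show ε * (w.re - t) - n = ε * (w.re - t - (e * n : ℤ)) by
        push_cast; rw [← he]; linear_combination n * h2, abs_mul, h3, one_mul]
      exact ha'.le.trans (hm _)
    rw [hn, ex_int]
    refine h.hA.del_out ha ?_
    rintro ⟨z, hz, e⟩
    obtain ⟨m, hm'⟩ := h.only z w (lt_of_le_of_lt hz ha') hw e
    exact (hm m).not_gt hm'

theorem Crs.del_tw (h : Crs I A B δ t θ ε) (ha : 0 < a) (ha' : a < δ) {z : ℂ} (hz : |z.im| < δ) :
    del A a (twF B a (1 : ℤ) (A z)) = ex (St a (z.im + ε * St a (-ε * (z.re - θ)))) := by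
  obtain ⟨e, he, h2, h3⟩ := h.int
  have h2' : (ε : ℂ) * ε = 1 := by exact_mod_cast h2
  by_cases hn : ∃ n : ℤ, |z.re - θ - n| < δ
  · obtain ⟨n, hn⟩ := hn
    let w : ℂ := -ε * Complex.I * (z - θ - n)
    have w1 : w.re = ε * z.im := by simp [w]
    have w2 : w.im = -ε * (z.re - θ - n) := by simp [w]
    have w3 : |w.im| < δ := by rwa [w2, abs_mul, abs_neg, h3, one_mul]
    have h1 := h.box w (by rwa [w1, abs_mul, h3, one_mul]) w3
    rw [show θ + ε * Complex.I * w = z + (-n : ℤ) by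
      simp only [w]; push_cast
      linear_combination (z - θ - n) * h2' - ε * ε * (z - θ - n) * I_mul_I, h.hA.per] at h1
    rw [← h1, h.hB.twF_apply, h.del_B ha ha' (by simpa [shD_apply] using w3),
      ← ex_St a (z.im + _) n]
    congr 2
    have h4 := St_add a (-ε * (z.re - θ)) (e * n)
    rw [show -ε * (z.re - θ) + (e * n : ℤ) = w.im by rw [w2]; push_cast; rw [← he]; ring,
      St_eq (w3.trans_le h.le)] at h4
    simp only [shD_apply, add_re, ofReal_re, add_im, ofReal_im, zero_add, w1, h4, Int.cast_one,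
      one_mul, Int.cast_mul, ← he]
    linear_combination (z.im + n) * h2
  · push Not at hn
    obtain ⟨m, hm⟩ := St_int ha (y := -ε * (z.re - θ)) fun n => by
      rw [show -ε * (z.re - θ) - n = -ε * (z.re - θ - (-(e * n) : ℤ)) by
        push_cast; rw [← he]; linear_combination n * h2, abs_mul, abs_neg, h3, one_mul]
      exact ha'.le.trans (hn _)
    rw [hm, he, ← Int.cast_mul, ex_St, St_eq (hz.trans_le h.le), h.hB.twF_out ha, h.hA.del_apply]
    rintro ⟨w, hw, e'⟩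
    have hw' := lt_of_le_of_lt hw ha'
    obtain ⟨m, hm'⟩ := h.only z w hz hw' e'.symm
    have h1 := h.box (w - t - m) (by simpa using hm') (by simpa using hw')
    rw [show (t : ℂ) + (w - t - m) = w + (-m : ℤ) by push_cast; ring, h.hB.per, e'] at h1
    obtain ⟨n, hn'⟩ := (h.hA.eq _ _).1 h1.symm
    refine (hn n).not_gt ?_
    rw [show z.re - θ - n = -ε * w.im by rw [hn']; simp; ring, abs_mul, abs_neg, h3, one_mul]
    exact hw'

/-- **the twist relation for circle maps** -/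
theorem Crs.exists_tw (h : Crs I A B δ t θ ε) (ha : 0 < a) (ha' : a < δ) {b : ℝ} (hb : b < δ) :
    ∃ (u : M → Circle) (g : M → ℝ), ContMDiff I (𝓡 1) ∞ u ∧ ContMDiff I 𝓘(ℝ, ℝ) ∞ g ∧
      (∀ x, u x = del A a x * (del A a (h.hB.twD ha 1 x))⁻¹ * ex (g x)) ∧
      ∀ z : ℂ, |z.im| ≤ b → u (A z) = ex z.re := by
  obtain ⟨e, he, h2, -⟩ := h.int
  let c : ContDiffBump (0 : ℝ) := ⟨max b a, (max b a + δ) / 2, lt_max_of_lt_right ha, by
    linarith [max_lt hb ha']⟩
  let G : ℂ → ℝ := fun z => c z.im * (z.re - ka a z.im + St a (z.im + ε * St a (-ε * (z.re - θ))))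
  have sS := St_cd ha (ha'.trans_le h.le)
  have pG : ∀ z (n : ℤ), G (z + n) = G z := fun z n => by
    have h3 := St_add a (-ε * (z.re - θ)) (-(e * n))
    have h4 := St_add a (z.im + ε * St a (-ε * (z.re - θ))) (-n)
    simp only [G, add_re, add_im, intCast_re, intCast_im, add_zero]
    rw [show -ε * (z.re + n - θ) = -ε * (z.re - θ) + (-(e * n) : ℤ) by push_cast; rw [← he]; ring, h3,
      show z.im + ε * (St a (-ε * (z.re - θ)) + (-(e * n) : ℤ)) =
        z.im + ε * St a (-ε * (z.re - θ)) + (-n : ℤ) by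
        push_cast; rw [← he]; linear_combination (-n) * h2, h4]
    push_cast
    ring
  have sg : ContMDiff I 𝓘(ℝ, ℝ) ∞ (extend A G 0) := h.hA.sm_ext (a := c.rOut) pG
    (fun z hz => by simp [G, c.zero_of_le_dist (x := z.im) (by simpa using hz)])
    ((c.contDiff.comp sm_im).mul ((sm_re.sub ((ka_cd a).comp sm_im)).add (sS.comp (sm_im.add
      (contDiff_const.mul (sS.comp (contDiff_const.mul (sm_re.sub contDiff_const)))))))).contMDiff
    contMDiff_const
  refine ⟨_, extend A G 0, ((h.hA.sm_del ha).mul ((h.hA.sm_del ha).comp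
    (h.hB.twD ha 1).contMDiff).inv).mul (sm_ex.comp sg), sg, fun _ => rfl, fun z hz => ?_⟩
  have h3 : c z.im = 1 := c.one_of_mem_closedBall (mem_closedBall_zero_iff.2 (le_max_of_le_left hz))
  show del A a (A z) * (del A a (twF B a (1 : ℤ) (A z)))⁻¹ * ex (extend A G 0 (A z)) = _
  rw [h.hA.ext_apply pG, h.del_tw ha ha' (hz.trans_lt hb), h.hA.del_apply]
  simp only [G, h3, one_mul, ex_add]
  rw [mul_comm (ex (z.re - _)), mul_assoc, inv_mul_cancel_left, ← ex_add, add_sub_cancel]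

/-! ### forms -/

theorem df_comp {f : M → ℝ} {g : ℝ → ℝ} {x : M} {c : ℝ} (hf : MDifferentiableAt I 𝓘(ℝ, ℝ) f x)
    (hg : HasDerivAt g c (f x)) : df I (fun y => g (f y)) x = c • df I f x := by
  rw [df, df, mf_of_has (f := fun y => g (f y))
    (hg.hasFDerivAt.hasMFDerivAt.comp x hf.hasMFDerivAt), ← map_smul]
  congr 1
  ext v
  exact mul_comm _ _

theorem ang_ex {f : M → ℝ} {x : M} (hf : ContMDiffAt I 𝓘(ℝ, ℝ) ∞ f x) :
    ang I (fun y => ex (f y)) x = (2 * π) • df I f x :=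
  (ang_exp (contMDiffAt_const.mul hf)).trans (df_comp (g := fun r => 2 * π * r)
    (hf.mdifferentiableAt ne0) (by simpa using (hasDerivAt_id (f x)).const_mul (2 * π)))

theorem Ann.eq_zero (h : Ann I A) {ν : M → Ext E} {z : ℂ} (h0 : pm 𝓘(ℝ, ℂ) I A ν z = 0) :
    ν (A z) = 0 := by
  rw [← pm_pm_inv (h.ld z).localInverse_isLocalDiffeomorphAt
    (h.ld z).localInverse_eventuallyEq_right ν, pm_apply,
    (h.ld z).localInverse_left_inv (h.ld z).localInverse_mem_target, h0, map_zero]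

theorem Ann.pm_del (h : Ann I A) (ha : 0 < a) (z : ℂ) :
    ∃ c ≥ (0 : ℝ), pm 𝓘(ℝ, ℂ) I A (ang I (del A a)) z = c • df 𝓘(ℝ, ℂ) im z := by
  refine ⟨2 * π * deriv (ka a) z.im, mul_nonneg (by positivity) (Monotone.deriv_nonneg fun x y hxy =>
    Real.smoothTransition.monotone (div_le_div_of_nonneg_right (by linarith) (by linarith))), ?_⟩
  rw [pm_ang (h.sm_del ha _) ((h.ld z).mdifferentiableAt ne0),
    ang_congr (h := fun z => ex (ka a z.im)) (.of_forall h.del_apply),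
    ang_ex (f := fun z : ℂ => ka a z.im) ((ka_cd a).comp sm_im).contMDiff.contMDiffAt,
    df_comp (sm_im.contMDiff.mdifferentiableAt ne0)
      ((ka_cd a).differentiable ne0 _).hasDerivAt, smul_smul]

theorem Ann.ang_del_out (h : Ann I A) (ha : 0 < a) {x : M} (hx : x ∉ strip A a) :
    ang I (del A a) x = 0 := by
  rw [ang_congr (h := 1) (eventually_of_mem ((h.isCompact_strip a).isClosed.isOpen_compl.mem_nhds hx)
    fun y hy => h.del_out ha hy), ang_one]
  rfl

/-- **TW** -/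
theorem Crs.exists_form (h : Crs I A B δ t θ ε) (hδ : 0 < δ) {o : M → Ext E} (ho : Ori I o)
    (hp : SameOn (pm 𝓘(ℝ, ℂ) I A o) oZ univ) {b : ℝ} (hb : b < δ) :
    ∃ (θ θ₁ : M → Ext E) (T : M ≃ₘ^∞⟮I, I⟯ M), Cl I 1 univ θ ∧ Cl I 1 univ θ₁ ∧
      SameOn (pm I I T o) o univ ∧ Ex I univ (θ - (θ₁ - pm I I T θ₁)) ∧
      (∀ z : ℂ, |z.im| ≤ b → pm 𝓘(ℝ, ℂ) I A θ z = (2 * π) • df 𝓘(ℝ, ℂ) re z) ∧
      ∀ ν : M → Ext E, (∀ x ∉ strip A b, ν x = 0) →
        (∀ z : ℂ, |z.im| ≤ b → ∃ c ≥ (0 : ℝ), pm 𝓘(ℝ, ℂ) I A ν z = c • df 𝓘(ℝ, ℂ) im z) →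
        ∀ x, ν x ≠ 0 → 0 < rat o (θ * ν) x := by
  have ha := half_pos hδ
  obtain ⟨u, g, su, sg, h1, h2⟩ := h.exists_tw ha (half_lt_self hδ) (b := (b + δ) / 2) (by linarith)
  have s1 := h.hA.sm_del ha
  have sT := (h.hB.twD ha 1).contMDiff
  have h3 : ∀ z : ℂ, |z.im| ≤ b → pm 𝓘(ℝ, ℂ) I A (ang I u) z = (2 * π) • df 𝓘(ℝ, ℂ) re z :=
    fun z hz => by
      rw [pm_ang (su _) ((h.hA.ld z).mdifferentiableAt ne0), ← ang_ex sm_re.contMDiff.contMDiffAt]
      refine ang_congr ?_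
      filter_upwards [(isOpen_lt continuous_im.abs continuous_const).mem_nhds
        (show |z.im| < (b + δ) / 2 by linarith)] with w hw using h2 w hw.le
  refine ⟨ang I u, ang I (del A (δ / 2)), h.hB.twD ha 1, cl_ang fun x _ => su x,
    cl_ang fun x _ => s1 x, h.hB.pos_twD ha 1 ho,
    ((ex_df fun x _ => sg x).smul (2 * π)).congr fun x _ => ?_, h3, fun ν n0 n1 x hx => ?_⟩
  · have e : u = del A (δ / 2) * (del A (δ / 2) ∘ h.hB.twD ha 1)⁻¹ * fun y => ex (g y) := funext h1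
    have s2 : CSm I (del A (δ / 2) ∘ h.hB.twD ha 1)⁻¹ x := ((s1.comp sT) x).inv
    have s3 : CSm I (del A (δ / 2) * (del A (δ / 2) ∘ h.hB.twD ha 1)⁻¹) x := (s1 x).mul s2
    have s4 : CSm I (fun y => ex (g y)) x := (sm_ex.comp sg) x
    simp only [Pi.sub_apply, Pi.smul_apply]
    rw [pm_ang (s1 _) ((sT x).mdifferentiableAt ne0), e, ang_mul s3 s4, ang_mul (s1 x) s2,
      ang_inv ((s1.comp sT) x), ang_ex (sg x)]
    abel
  · obtain ⟨z, hz, rfl⟩ : x ∈ strip A b := by_contra fun h' => hx (n0 x h')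
    obtain ⟨c, c0, hc⟩ := n1 z hz
    have c1 : 0 < c := c0.lt_of_ne' fun e => hx (h.hA.eq_zero (by rw [hc, e, zero_smul]))
    refine pos_rat.2 (same_of_pm (s := {z}) (fun w _ => h.hA.ld w) ?_ _ ⟨z, rfl, rfl⟩)
    rintro _ rfl
    rw [pm_mul, Pi.mul_apply, h3 _ hz, hc, smul_mul_smul_comm, map_smul, smul_eq_mul, mul_left_comm]
    exact mul_pos (by positivity) (hp _ trivial)

end Crest.Agent.X212.Tw39
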